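import Mathlib

/-!
P318: numerics for the cut bound.
-/

set_option autoImplicit false

namespace Vale.Agent.P318.H336

open Real

theorem num_d (ℓ d : ℕ) (hd : d = 2 ^ (2 * ℓ + 20)) : (d : ℝ) = 2 ^ 20 * (2 ^ ℓ) ^ 2 := by
  have h : d = 2 ^ 20 * (2 ^ ℓ) ^ 2 := by
    rw [hd, ← pow_mul, ← pow_add]
    congr 1
    omega
  rw [h]
  push_cast
  ring

theorem num_4d (ℓ d k : ℕ) (hd : d = 2 ^ (2 * ℓ + 20)) (hk : 2 ^ (4 * ℓ + 70) ≤ k) : 4 * d ≤ k := by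
  refine le_trans ?_ hk
  rw [hd]
  have : 4 * 2 ^ (2 * ℓ + 20) = 2 ^ (2 * ℓ + 22) := by
    rw [show (4 : ℕ) = 2 ^ 2 by norm_num, ← pow_add]
    congr 1
    omega
  rw [this]
  exact Nat.pow_le_pow_right (by norm_num) (by omega)

theorem num_1024d (ℓ d κ : ℕ) (hd : d = 2 ^ (2 * ℓ + 20)) (hκ : 2 ^ (2 * ℓ + 30) ≤ κ) :
    1024 * d ≤ κ := by
  refine le_trans ?_ hκ
  rw [hd, show (1024 : ℕ) = 2 ^ 10 by norm_num, ← pow_add]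
  exact Nat.pow_le_pow_right (by norm_num) (by omega)

theorem num_ld (ℓ d : ℕ) (hd : d = 2 ^ (2 * ℓ + 20)) : ℓ ≤ d ∧ 100 ≤ d := by
  constructor
  · have h6 : ℓ < 2 ^ ℓ := Nat.lt_two_pow_self
    have h7 : 2 ^ ℓ ≤ d := by
      rw [hd]; exact Nat.pow_le_pow_right (by norm_num) (by omega)
    omega
  · rw [hd]
    calc 100 ≤ 2 ^ 20 := by norm_num
      _ ≤ 2 ^ (2 * ℓ + 20) := Nat.pow_le_pow_right (by norm_num) (by omega)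

theorem num_X (ℓ d κ : ℕ) (A : ℝ) (hA0 : 0 ≤ A) (hA : A ≤ 2 * 2 ^ ℓ) (hd : d = 2 ^ (2 * ℓ + 20))
    (hκ : 2 ^ (2 * ℓ + 30) ≤ κ) : 10 ^ 8 * 9 ^ d * A ^ 5 ≤ (2 : ℝ) ^ κ := by
  have h5 := num_1024d ℓ d κ hd hκ
  obtain ⟨h6, h7⟩ := num_ld ℓ d hd
  clear hd hκ
  have h1 : A ^ 5 ≤ 2 ^ (5 * ℓ + 5) := by
    calc A ^ 5 ≤ (2 * 2 ^ ℓ) ^ 5 := pow_le_pow_left₀ hA0 hA 5
      _ = 2 ^ (5 * ℓ + 5) := by
        rw [mul_pow, ← pow_mul, ← pow_add]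
        congr 1
        omega
  have h2 : (9 : ℝ) ^ d ≤ 2 ^ (4 * d) := by
    rw [pow_mul]
    exact pow_le_pow_left₀ (by norm_num) (by norm_num) d
  have h3 : (10 : ℝ) ^ 8 ≤ 2 ^ 27 := by norm_num
  have h4 : (10 : ℝ) ^ 8 * 9 ^ d * A ^ 5 ≤ 2 ^ 27 * 2 ^ (4 * d) * 2 ^ (5 * ℓ + 5) := by gcongr
  refine h4.trans ?_
  rw [← pow_add, ← pow_add]
  exact pow_le_pow_right₀ (by norm_num) (by omega)

theorem num_k (ℓ : ℕ) : ((2 ^ (4 * ℓ + 70) : ℕ) : ℝ) = 2 ^ 70 * (2 ^ ℓ) ^ 4 := by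
  push_cast
  rw [← pow_mul, ← pow_add]
  congr 1
  omega

theorem num_k2 (ℓ : ℕ) : 2 ≤ 2 ^ (4 * ℓ + 70) ∧ Even (2 ^ (4 * ℓ + 70)) := by
  constructor
  · calc 2 = 2 ^ 1 := by norm_num
      _ ≤ 2 ^ (4 * ℓ + 70) := Nat.pow_le_pow_right (by norm_num) (by omega)
  · exact Even.pow_of_ne_zero (by norm_num) (by omega)

theorem num_2d (ℓ d : ℕ) (hd : d = 2 ^ (2 * ℓ + 20)) : 2 * d ≤ 2 ^ (4 * ℓ + 70) := by
  have := num_4d ℓ d _ hd le_rfl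
  omega

theorem num_card (a κ : ℕ) (h : a = 2 ^ κ) : (a : ℝ) = 2 ^ κ := by
  rw [h]; push_cast; ring

theorem num_A2 (L d A : ℝ) (_hL : 1 ≤ L) (hA0 : 0 ≤ A) (hA2 : A ≤ 1.2 * L)
    (hd : d = 2 ^ 20 * L ^ 2) : 1000 * A ^ 2 ≤ d + 1 := by
  have h1 : A ^ 2 ≤ (1.2 * L) ^ 2 := pow_le_pow_left₀ hA0 hA2 2
  nlinarith [sq_nonneg L]

theorem num_sqrt (ℓ : ℕ) (pc q : ℝ) (hq0 : 0 ≤ q) (hq : q ≤ 1)
    (hpc : pc ≤ (1 / 2) ^ (6 * ℓ + 80)) :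
    √(pc * q) ≤ 1 / (2 ^ 40 * (2 ^ ℓ) ^ 3) := by
  rw [show (1 : ℝ) / (2 ^ 40 * (2 ^ ℓ) ^ 3) = √((1 / (2 ^ 40 * (2 ^ ℓ) ^ 3)) ^ 2) by
    rw [Real.sqrt_sq (by positivity)]]
  apply Real.sqrt_le_sqrt
  have h1 : ((1 : ℝ) / 2) ^ (6 * ℓ + 80) = (1 / (2 ^ 40 * (2 ^ ℓ) ^ 3)) ^ 2 := by
    rw [div_pow, div_pow, one_pow, one_pow]
    congr 1
    rw [mul_pow, ← pow_mul, ← pow_mul, ← pow_mul, ← pow_add]
    congr 1
    omega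
  rw [← h1]
  have h2 : (0 : ℝ) ≤ (1 / 2) ^ (6 * ℓ + 80) := by positivity
  nlinarith [mul_le_mul_of_nonneg_right hpc hq0]

theorem num_prg (L A d ξ T q r : ℝ) (hL : 1 ≤ L) (hA : 0 < A) (hAL : A ≤ 1.2 * L)
    (hd : d = 2 ^ 20 * L ^ 2)
    (hξ0 : 0 ≤ ξ) (hξ : ξ ≤ π) (hT0 : 0 ≤ T) (hT : T ≤ A) (hq : q ≤ 1 / (2 ^ 40 * L ^ 3))
    (hq0 : 0 ≤ q) (hr : r = 2 ^ 70 * L ^ 4) :
    √2 * |ξ| * d * q + 2 * exp 1 * ξ ^ 2 * T / r ≤ 1 / (200 * A) := by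
  have hL0 : 0 < L := by linarith
  have hpi : π ≤ 4 := by linarith [pi_lt_d2]
  have hξ4 : |ξ| ≤ 4 := by rw [abs_of_nonneg hξ0]; linarith
  have hs2 : √2 ≤ 2 := by
    rw [Real.sqrt_le_left (by norm_num)]; norm_num
  have hd0 : 0 ≤ d := by rw [hd]; positivity
  have t1 : √2 * |ξ| * d * q ≤ 1 / (2 ^ 16 * L) := by
    calc √2 * |ξ| * d * q ≤ 2 * 4 * d * (1 / (2 ^ 40 * L ^ 3)) := by gcongr
      _ = 8 * (2 ^ 20 * L ^ 2) * (1 / (2 ^ 40 * L ^ 3)) := by rw [hd]; ring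
      _ = 1 / (2 ^ 17 * L) := by field_simp; norm_num
      _ ≤ 1 / (2 ^ 16 * L) := by
        apply one_div_le_one_div_of_le (by positivity)
        nlinarith
  have hexp : exp 1 ≤ 3 := by linarith [Real.exp_one_lt_d9]
  have hξ2 : ξ ^ 2 ≤ 16 := by nlinarith
  have hT2 : T ≤ 2 * L := by linarith
  have t2 : 2 * exp 1 * ξ ^ 2 * T / r ≤ 1 / (2 ^ 16 * L) := by
    rw [hr]
    calc 2 * exp 1 * ξ ^ 2 * T / (2 ^ 70 * L ^ 4)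
        ≤ 2 * 3 * 16 * (2 * L) / (2 ^ 70 * L ^ 4) := by gcongr
      _ = 192 / (2 ^ 70 * L ^ 3) := by field_simp; norm_num
      _ ≤ 1 / (2 ^ 16 * L) := by
        rw [div_le_div_iff₀ (by positivity) (by positivity)]
        have h1 : L ≤ L ^ 3 := by
          have : (1 : ℝ) ≤ L ^ 2 := one_le_pow₀ hL
          nlinarith
        nlinarith
  have t3 : 1 / (2 ^ 16 * L) + 1 / (2 ^ 16 * L) ≤ 1 / (200 * A) := by
    have h1 : 1 / (2 ^ 16 * L) + 1 / (2 ^ 16 * L) = 1 / (2 ^ 15 * L) := by field_simp; norm_num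
    rw [h1]
    apply one_div_le_one_div_of_le (by positivity)
    nlinarith
  linarith

theorem num_prg2 (L A d ξ T q r : ℝ) (hL : 1 ≤ L) (hA : 0 < A) (hAL : A ≤ 1.2 * L)
    (hd : d = 2 ^ 20 * L ^ 2)
    (hξ0 : 0 ≤ ξ) (hξ : ξ ≤ π) (hT0 : 0 ≤ T) (hT : T ≤ A) (hq : q ≤ 1 / (2 ^ 40 * L ^ 3))
    (hq0 : 0 ≤ q) (hr : r = 2 ^ 70 * L ^ 4) :
    2 * |ξ| * (d * q) + 2 * exp 1 / r * ξ ^ 2 * T ≤ 1 / (200 * A) := by
  have hL0 : 0 < L := by linarith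
  have hpi : π ≤ 4 := by linarith [pi_lt_d2]
  have hξ4 : |ξ| ≤ 4 := by rw [abs_of_nonneg hξ0]; linarith
  have hd0 : 0 ≤ d := by rw [hd]; positivity
  have t1 : 2 * |ξ| * (d * q) ≤ 1 / (2 ^ 16 * L) := by
    calc 2 * |ξ| * (d * q) ≤ 2 * 4 * (d * (1 / (2 ^ 40 * L ^ 3))) := by gcongr
      _ = 8 * (2 ^ 20 * L ^ 2) * (1 / (2 ^ 40 * L ^ 3)) := by rw [hd]; ring
      _ = 1 / (2 ^ 17 * L) := by field_simp; norm_num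
      _ ≤ 1 / (2 ^ 16 * L) := by
        apply one_div_le_one_div_of_le (by positivity)
        nlinarith
  have hexp : exp 1 ≤ 3 := by linarith [Real.exp_one_lt_d9]
  have hξ2 : ξ ^ 2 ≤ 16 := by nlinarith
  have hT2 : T ≤ 2 * L := by linarith
  have t2 : 2 * exp 1 / r * ξ ^ 2 * T ≤ 1 / (2 ^ 16 * L) := by
    have hrr : 2 * exp 1 / r * ξ ^ 2 * T = 2 * exp 1 * ξ ^ 2 * T / r := by ring
    rw [hrr, hr]
    calc 2 * exp 1 * ξ ^ 2 * T / (2 ^ 70 * L ^ 4)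
        ≤ 2 * 3 * 16 * (2 * L) / (2 ^ 70 * L ^ 4) := by gcongr
      _ = 192 / (2 ^ 70 * L ^ 3) := by field_simp; norm_num
      _ ≤ 1 / (2 ^ 16 * L) := by
        rw [div_le_div_iff₀ (by positivity) (by positivity)]
        have h1 : L ≤ L ^ 3 := by
          have : (1 : ℝ) ≤ L ^ 2 := one_le_pow₀ hL
          nlinarith
        nlinarith
  have t3 : 1 / (2 ^ 16 * L) + 1 / (2 ^ 16 * L) ≤ 1 / (200 * A) := by
    have h1 : 1 / (2 ^ 16 * L) + 1 / (2 ^ 16 * L) = 1 / (2 ^ 15 * L) := by field_simp; norm_num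
    rw [h1]
    apply one_div_le_one_div_of_le (by positivity)
    nlinarith
  linarith

end Vale.Agent.P318.H336
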