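import Vale.Agent.P318.H336.Cut
import Vale.Agent.P318.H336.Num
import Vale.Agent.P318.H937.Spec
import Vale.Agent.P318.H885.PRGCode

/-!
P318: `SpecCUT`.
-/

set_option autoImplicit false
set_option linter.unusedSectionVars false
set_option linter.unusedVariables false

namespace Vale.Agent.P318.H336

open Finset Real
open Vale.Agent.P318.H689 (Ex ev tinf inf sg)
open Vale.Agent.P318.H937 (pair sz GoodCode SpecCUT)

noncomputable section

section Weights

variable {X Γ : Type} [Fintype X] [DecidableEq X] [Fintype Γ] [Nonempty Γ]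
  (V : Submodule (ZMod 2) (X → ZMod 2)) [Fintype V] [DecidableEq V] (gv : Γ → V)

/-- distribution of the test -/
def wt (v : V) : ℝ := (∑ γ : Γ, if gv γ = v then (1 : ℝ) else 0) / Fintype.card Γ

theorem wt_nonneg (v : V) : 0 ≤ wt V gv v := by
  unfold wt
  refine div_nonneg (Finset.sum_nonneg fun γ _ => ?_) (Nat.cast_nonneg _)
  split_ifs <;> norm_num

theorem sum_wt (F : V → ℝ) :
    ∑ v : V, wt V gv v * F v = (∑ γ : Γ, F (gv γ)) / Fintype.card Γ := by
  unfold wt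
  have h1 : ∀ v : V, (∑ γ : Γ, if gv γ = v then (1 : ℝ) else 0) / Fintype.card Γ * F v =
      (∑ γ : Γ, if gv γ = v then F v else 0) / Fintype.card Γ := by
    intro v
    rw [div_mul_eq_mul_div, Finset.sum_mul]
    congr 1
    refine Finset.sum_congr rfl fun γ _ => ?_
    split_ifs <;> simp
  simp_rw [h1]
  rw [← Finset.sum_div, Finset.sum_comm]
  congr 1
  refine Finset.sum_congr rfl fun γ _ => ?_
  simp

theorem ne_zero_iff (a : ZMod 2) : a ≠ 0 ↔ a = 1 := by revert a; decide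

theorem lam_bridge (B : X → ZMod 2) :
    lam V (wt V gv) B = Vale.Agent.P318.H937.lam (fun γ => (gv γ).1) B := by
  classical
  have h1 : lam V (wt V gv) B =
      ∑ v : V, wt V gv v * (if ∑ x, B x * v.1 x = 0 then (0 : ℝ) else 1) := by
    unfold lam
    refine Finset.sum_congr rfl fun v _ => ?_
    split_ifs <;> simp
  rw [h1, sum_wt]
  unfold Vale.Agent.P318.H937.lam
  rw [Nat.card_eq_fintype_card, Nat.card_eq_fintype_card, Fintype.card_subtype]
  congr 1
  rw [Finset.card_filter, Nat.cast_sum]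
  refine Finset.sum_congr rfl fun γ _ => ?_
  have h2 : (∑ x, B x * (gv γ).1 x = 0) ↔ ¬ (pair B (gv γ).1 = 1) := by
    rw [← ne_zero_iff, not_not]
    rfl
  by_cases h : pair B (gv γ).1 = 1
  · rw [if_neg (by rw [h2]; exact not_not.2 h), if_pos h]; simp
  · rw [if_pos (by rw [h2]; exact h), if_neg h]; simp

theorem cost_bridge (f : V → ℝ) (hf : ∀ v, f v = 1 ∨ f v = -1) :
    cost V (wt V gv) f * ((Fintype.card V : ℝ) * Fintype.card Γ) =
      (Nat.card {w : V × Γ // f (w.1 + gv w.2) ≠ f w.1} : ℝ) := by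
  classical
  have hN := card_pos_V (V := V)
  have hG : (0 : ℝ) < Fintype.card Γ := by exact_mod_cast Fintype.card_pos
  have h1 : cost V (wt V gv) f =
      (∑ v : V, (∑ γ : Γ, (1 - f v * f (v + gv γ)) / 2) / Fintype.card Γ) / Fintype.card V := by
    unfold cost
    congr 1
    exact Finset.sum_congr rfl fun v _ => sum_wt V gv (fun g => (1 - f v * f (v + g)) / 2)
  have h3 : (Nat.card {w : V × Γ // f (w.1 + gv w.2) ≠ f w.1} : ℝ) =
      ∑ v : V, ∑ γ : Γ, (if f (v + gv γ) ≠ f v then (1 : ℝ) else 0) := by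
    rw [Nat.card_eq_fintype_card, Fintype.card_subtype, Finset.card_filter, Nat.cast_sum,
      Fintype.sum_prod_type]
    refine Finset.sum_congr rfl fun v _ => Finset.sum_congr rfl fun γ _ => ?_
    split_ifs <;> simp
  rw [h3, h1, ← Finset.sum_div]
  have h2 : ∀ a : ℝ, a / (Fintype.card Γ : ℝ) / (Fintype.card V : ℝ) *
      ((Fintype.card V : ℝ) * Fintype.card Γ) = a := by
    intro a
    field_simp
  rw [h2]
  refine Finset.sum_congr rfl fun v _ => Finset.sum_congr rfl fun γ _ => ?_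
  rcases hf v with h3 | h3 <;> rcases hf (v + gv γ) with h4 | h4 <;> rw [h3, h4] <;> norm_num

end Weights

/-- indicator of a finite set -/
theorem exists_finset {X : Type} [Fintype X] [DecidableEq X] (U : X → ZMod 2) :
    ∃ S : Finset X, S.card = sz U ∧ (∀ v : X → ZMod 2, pair U v = ∑ x ∈ S, v x) := by
  refine ⟨univ.filter fun x => U x ≠ 0, rfl, fun v => ?_⟩
  unfold pair
  rw [Finset.sum_filter]
  refine Finset.sum_congr rfl fun x _ => ?_
  by_cases h : U x = 0
  · simp [h]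
  · rw [if_pos h, (ne_zero_iff _).1 h, one_mul]

theorem sz_ind {X : Type} [Fintype X] [DecidableEq X] (S : Finset X) :
    sz (fun x => if x ∈ S then (1 : ZMod 2) else 0) = S.card := by
  unfold sz
  congr 1
  ext x
  simp

theorem pair_ind {X : Type} [Fintype X] [DecidableEq X] (S : Finset X) (v : X → ZMod 2) :
    pair (fun x => if x ∈ S then (1 : ZMod 2) else 0) v = ∑ x ∈ S, v x := by
  unfold pair
  simp

theorem sz_add_le {X : Type} [Fintype X] [DecidableEq X] (U U' : X → ZMod 2) :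
    sz (U + U') ≤ sz U + sz U' := by
  unfold sz
  refine le_trans (Finset.card_le_card ?_) (Finset.card_union_le _ _)
  intro x hx
  simp only [Finset.mem_filter, Finset.mem_univ, true_and, Finset.mem_union, Pi.add_apply] at hx ⊢
  by_contra h
  push Not at h
  exact hx (by rw [h.1, h.2, add_zero])

theorem pair_add {X : Type} [Fintype X] (U U' v : X → ZMod 2) :
    pair (U + U') v = pair U v + pair U' v := by
  unfold pair
  rw [← Finset.sum_add_distrib]
  exact Finset.sum_congr rfl fun x _ => by rw [Pi.add_apply, add_mul]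

/-- uniqueness of small representatives -/
theorem gc_uniq {X : Type} [AddCommGroup X] [Module (ZMod 2) X] [Fintype X] [DecidableEq X]
    {κ s d k D : ℕ} {pc : ℝ} {V V1 : Submodule (ZMod 2) (X → ZMod 2)} {Γ : Type}
    {g : Γ → X → ZMod 2} (hGC : GoodCode X κ s d k D pc V V1 Γ g)
    (U : X → ZMod 2) (hU : sz U ≤ k) (h0 : ∀ v ∈ V, pair U v = 0) : U = 0 := by
  by_contra hne
  obtain ⟨v, hv, h1⟩ := hGC.indep U hne hU
  rw [h0 v (hGC.le hv)] at h1
  exact absurd h1 (by decide)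

theorem gc_T9 {X : Type} [AddCommGroup X] [Module (ZMod 2) X] [Fintype X] [DecidableEq X]
    {κ s d k D : ℕ} {pc : ℝ} {V V1 : Submodule (ZMod 2) (X → ZMod 2)} {Γ : Type}
    {g : Γ → X → ZMod 2} (hGC : GoodCode X κ s d k D pc V V1 Γ g) (hd : 100 ≤ d)
    (B : X → ZMod 2) (hB : Vale.Agent.P318.H937.lam g B < 9 / 10 / 2 ^ s * (d + 1)) :
    ∃ U : Finset X, U.card ≤ d ∧ ∀ v ∈ V, ∑ x, B x * v x = ∑ x ∈ U, v x := by
  have h2s : (0 : ℝ) < 2 ^ s := by positivity
  have hd' : (100 : ℝ) ≤ d := by exact_mod_cast hd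
  have h1 : Vale.Agent.P318.H937.lam g B * 2 ^ s < 9 / 10 * (d + 1) := by
    rw [div_mul_eq_mul_div, lt_div_iff₀ h2s] at hB
    exact hB
  obtain ⟨U, hU, hsz⟩ := hGC.exact B (by linarith)
  obtain ⟨S, hS, hpS⟩ := exists_finset U
  refine ⟨S, ?_, fun v hv => ?_⟩
  · rw [hS]
    have h2 : (sz U : ℝ) < d + 1 := by linarith
    have h3 : sz U < d + 1 := by exact_mod_cast h2
    omega
  · rw [← hpS]; exact hU v hv

theorem gc_EN {X : Type} [AddCommGroup X] [Module (ZMod 2) X] [Fintype X] [DecidableEq X]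
    {κ s d k D : ℕ} {pc : ℝ} {V V1 : Submodule (ZMod 2) (X → ZMod 2)} {Γ : Type}
    {g : Γ → X → ZMod 2} (hGC : GoodCode X κ s d k D pc V V1 Γ g) (hkd : 4 * d ≤ k)
    (S : Finset X) (hS : S.card ≤ d) :
    9 / 10 / 2 ^ s * S.card ≤
      Vale.Agent.P318.H937.lam g (fun x => if x ∈ S then 1 else 0) := by
  have h2s : (0 : ℝ) < 2 ^ s := by positivity
  rw [div_mul_eq_mul_div, div_le_iff₀ h2s]
  by_cases hbig : Vale.Agent.P318.H937.lam g (fun x => if x ∈ S then 1 else 0) * 2 ^ s ≤ d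
  · obtain ⟨U, hU, hsz⟩ := hGC.exact _ hbig
    have h1 : (sz U : ℝ) ≤ 2 * d := by linarith
    have h1' : sz U ≤ 2 * d := by exact_mod_cast h1
    have h2 : (fun x => if x ∈ S then (1 : ZMod 2) else 0) + U = 0 := by
      apply gc_uniq hGC
      · refine (sz_add_le _ _).trans ?_
        rw [sz_ind]; omega
      · intro v hv
        rw [pair_add, hU v hv]
        have hz : ∀ a : ZMod 2, a + a = 0 := by decide
        exact hz _
    have h3 : U = fun x => if x ∈ S then (1 : ZMod 2) else 0 := by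
      funext x
      have h4 := congrFun h2 x
      simp only [Pi.add_apply, Pi.zero_apply] at h4
      have h5 : ∀ a b : ZMod 2, a + b = 0 → b = a := by decide
      exact h5 _ _ h4
    rw [h3, sz_ind] at hsz
    exact hsz
  · push Not at hbig
    have : (S.card : ℝ) ≤ d := by exact_mod_cast hS
    linarith

theorem gc_KW1 {X : Type} [AddCommGroup X] [Module (ZMod 2) X] [Fintype X] [DecidableEq X]
    {κ s d k D : ℕ} {pc : ℝ} {V V1 : Submodule (ZMod 2) (X → ZMod 2)} {Γ : Type}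
    {g : Γ → X → ZMod 2} (hGC : GoodCode X κ s d k D pc V V1 Γ g)
    (S : Finset X) (hS : S.Nonempty) (hSc : S.card ≤ k) : ∃ v ∈ V1, ∑ x ∈ S, v x ≠ 0 := by
  obtain ⟨x0, hx0⟩ := hS
  obtain ⟨v, hv, h1⟩ := hGC.indep (fun x => if x ∈ S then (1 : ZMod 2) else 0)
    (fun h => by have := congrFun h x0; simp [hx0] at this) (by rw [sz_ind]; exact hSc)
  refine ⟨v, hv, ?_⟩
  rw [pair_ind] at h1
  rw [h1]; decide

theorem gc_PRG {X : Type} [AddCommGroup X] [Module (ZMod 2) X] [Fintype X]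
    [DecidableEq X] {κ s d k D : ℕ} {pc : ℝ} {V V1 : Submodule (ZMod 2) (X → ZMod 2)} [Fintype V]
    {Γ : Type} {g : Γ → X → ZMod 2} (hGC : GoodCode X κ s d k D pc V V1 Γ g)
    {ℓ : ℕ} (hd : d = 2 ^ (2 * ℓ + 20)) (hk : 2 ^ (4 * ℓ + 70) ≤ k)
    (hpc : pc ≤ (1 / 2) ^ (6 * ℓ + 80)) {A : ℝ} (hA0 : 0 < A) (hA2 : A ≤ 1.2 * 2 ^ ℓ)
    (c : Finset X → ℝ) (hc : ∀ S, d < S.card → c S = 0) (hc2 : ∑ S, c S ^ 2 ≤ 1)
    (hT : tinf c ≤ A) (β ξ : ℝ) (hξ0 : 0 ≤ ξ) (hξ : ξ ≤ π) :
    |Ex (fun v : V => cos (β + ξ * ev c (fun x => zs (v.1 x)))) -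
      Ex (fun z : X → Bool => cos (β + ξ * ev c (fun x => sg (z x))))| ≤ 1 / (200 * A) := by
  have hP := Vale.Agent.P318.H885.prg_goodCode hGC (2 ^ (4 * ℓ + 70)) (num_k2 ℓ).2 (num_k2 ℓ).1 hk
    c d hc (num_2d ℓ d hd) β ξ
  refine hP.trans ?_
  exact num_prg2 (2 ^ ℓ) A d ξ (tinf c) _ _ (one_le_pow₀ (by norm_num)) hA0 hA2
    (num_d ℓ d hd) hξ0 hξ (Vale.Agent.P318.H689.tinf_nonneg c) hT
    (num_sqrt ℓ pc _ (Finset.sum_nonneg fun S _ => sq_nonneg _) hc2 hpc) (Real.sqrt_nonneg _) (num_k ℓ)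

/-- **Every balanced translation invariant cut is expensive.** -/
theorem spec_cut : SpecCUT := by
  intro X _ _ _ _ κ s d k D pc V V1 Γ g hGC ℓ hℓ hd hκ hk hpc f hf hinv hbal
  classical
  have := hGC.fin
  have := hGC.ne
  let _ : Fintype Γ := Fintype.ofFinite Γ
  let _ : Fintype V := Fintype.ofFinite V
  set gv : Γ → V := fun γ => ⟨g γ, hGC.test γ⟩ with hgv
  have hN := card_pos_V (V := V)
  have hG : (0 : ℝ) < Fintype.card Γ := by exact_mod_cast Fintype.card_pos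
  have h2s : (0 : ℝ) < 2 ^ s := by positivity
  set A : ℝ := 2 ^ ℓ / (9 / 10) with hA
  have hℓ1 : (1 : ℝ) ≤ 2 ^ ℓ := one_le_pow₀ (by norm_num)
  have hA1 : 1 ≤ A := by
    rw [hA, le_div_iff₀ (by norm_num)]; linarith
  have hA2 : A ≤ 1.2 * 2 ^ ℓ := by
    rw [hA, div_le_iff₀ (by norm_num)]; linarith
  have hd20 := num_d ℓ d hd
  have hkd := num_4d ℓ d k hd hk
  have hlam : ∀ B : X → ZMod 2, lam V (wt V gv) B = Vale.Agent.P318.H937.lam g B := by
    intro B
    rw [lam_bridge]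
  have hd1000 : 1000 * A ^ 2 ≤ d + 1 := num_A2 (2 ^ ℓ) d A hℓ1 (by linarith) hA2 hd20
  have hXc : 10 ^ 8 * 9 ^ d * A ^ 5 ≤ (Fintype.card X : ℝ) := by
    rw [num_card _ _ hGC.card]
    exact num_X ℓ d κ A (by linarith) (by linarith) hd hκ
  -- the function on `V`
  set f' : V → ℝ := fun v => f v.1 with hf'
  have hf1 : ∀ v, f' v = 1 ∨ f' v = -1 := fun v => hf v.1 v.2
  have hf2 : ∀ v, f' v ^ 2 = 1 := fun v => by rcases hf1 v with h | h <;> rw [h] <;> norm_num
  have hinv' : ∀ u v : V, ∀ x : X, (∀ y, v.1 y = u.1 (y + x)) → f' v = f' u := by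
    intro u v x h
    have h1 : v.1 = Vale.Agent.P318.H937.tr x u.1 := funext h
    rw [hf']
    simp only
    rw [h1]
    exact hinv u.1 u.2 x
  have hbal' : |Ex f'| ≤ 1 / 2 := by
    have h1 : ∑ᶠ v : V, f v = ∑ v : V, f' v := finsum_eq_sum_of_fintype _
    rw [h1, Nat.card_eq_fintype_card] at hbal
    unfold Ex
    rw [abs_div, abs_of_pos hN, div_le_iff₀ hN]
    linarith
  have hcut := cut V (wt V gv) (wt_nonneg V gv) d (9 / 10 / 2 ^ s) A (by positivity) hA1 hd1000 hXc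
    (fun B hB => gc_T9 hGC (num_ld ℓ d hd).2 B (by rw [← hlam]; exact hB))
    (fun U hU => by rw [hlam]; exact gc_EN hGC hkd U hU)
    (fun U hU hUc => by
      obtain ⟨v, hv, h1⟩ := gc_KW1 hGC U hU (by omega)
      exact ⟨v, hGC.le hv, h1⟩) hGC.trans
    (fun c hc hc2 hT β ξ h0 h1 => gc_PRG hGC hd hk hpc (by linarith) hA2 c hc hc2 hT β ξ h0 h1)
    f' hf2 hinv' hbal'
  have hb := cost_bridge V gv f' hf1
  have hb2 : (Nat.card {w : V × Γ // f (w.1 + g w.2) ≠ f w.1} : ℝ) =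
      (Nat.card {w : V × Γ // f' (w.1 + gv w.2) ≠ f' w.1} : ℝ) := rfl
  rw [hb2, ← hb, Nat.card_eq_fintype_card, Nat.card_eq_fintype_card]
  have heA : 9 / 10 / 2 ^ s * A = 2 ^ ℓ * (1 / 2) ^ s := by
    rw [hA, div_pow, one_pow]
    field_simp
  rw [← heA]
  exact mul_lt_mul_of_pos_right hcut (by positivity)

end

end Vale.Agent.P318.H336
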