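import Vale.Agent.P318.H336.Fourier
import Vale.Agent.P318.H689.Chain

/-!
P318: the final cut deduction (sections 10, 11, 13): an `X`-invariant function `f : V → {±1}` with
`|E f| ≤ 1/2` has large cost.
-/

set_option autoImplicit false
set_option linter.unusedSectionVars false
set_option linter.unusedVariables false

namespace Vale.Agent.P318.H336

open Finset Real
open Vale.Agent.P318.H689 (Ex ev tinf inf sg etaP muP FF chain one_sub_FF_sq Ex_sub Ex_add
  Ex_mono Ex_congr Ex_const_mul Ex_mul_const Ex_div_const Ex_const abs_Ex_le Ex_mul_sq_le Ex_nonneg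
  tinf_nonneg FF_sub_sq FF_abs)

noncomputable section

variable {X : Type} [AddCommGroup X] [Fintype X] [DecidableEq X]
  (V : Submodule (ZMod 2) (X → ZMod 2)) [Fintype V]

theorem PV_eq (c : Finset X → ℝ) (v : V) : PV V c v = ev c (fun x => zs (v.1 x)) := rfl

/-- rounding is exact at `±1` -/
theorem FF_pm (t : ℝ) (ht : t ^ 2 = 1) : FF t = t := by
  have h : (t - 1) * (t + 1) = 0 := by nlinarith
  unfold FF
  rcases mul_eq_zero.1 h with h1 | h1
  · have : t = 1 := by linarith
    subst this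
    simp
  · have : t = -1 := by linarith
    subst this
    have h2 : π / 2 * (-1) = -(π / 2) := by ring
    rw [h2, sin_neg, sin_pi_div_two]

theorem one_sub_FF_sq_le (t p : ℝ) (ht : t ^ 2 = 1) : 1 - FF p ^ 2 ≤ π ^ 2 / 4 * (t - p) ^ 2 := by
  have h : (t - 1) * (t + 1) = 0 := by nlinarith
  -- `1 - FF p ^ 2 = cos² (π p / 2) = sin² (π (t - p) / 2)`
  have key : 1 - FF p ^ 2 = sin (π / 2 * (t - p)) ^ 2 := by
    have e1 : π / 2 * (t - p) = π / 2 * t - π / 2 * p := by ring
    rw [e1, sin_sub]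
    unfold FF
    have hs := sin_sq_add_cos_sq (π / 2 * p)
    rcases mul_eq_zero.1 h with h1 | h1
    · have : t = 1 := by linarith
      subst this
      simp only [mul_one, sin_pi_div_two, cos_pi_div_two]
      nlinarith
    · have : t = -1 := by linarith
      subst this
      have h2 : π / 2 * (-1) = -(π / 2) := by ring
      rw [h2, sin_neg, cos_neg, sin_pi_div_two, cos_pi_div_two]
      nlinarith
  rw [key]
  have h1 : |sin (π / 2 * (t - p))| ≤ |π / 2 * (t - p)| := abs_sin_le_abs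
  calc sin (π / 2 * (t - p)) ^ 2 ≤ (π / 2 * (t - p)) ^ 2 := sq_le_sq.2 h1
    _ = π ^ 2 / 4 * (t - p) ^ 2 := by ring

theorem pi_sq_le : π ^ 2 ≤ 9.87 := by
  have h4 : π ≤ 3.1416 := by linarith [pi_lt_d4]
  calc π ^ 2 ≤ 3.1416 ^ 2 := pow_le_pow_left₀ pi_pos.le h4 2
    _ ≤ 9.87 := by norm_num

theorem pi_four_le : π ^ 4 ≤ 97.42 := by
  have h4 : π ≤ 3.1416 := by linarith [pi_lt_d4]
  calc π ^ 4 ≤ 3.1416 ^ 4 := pow_le_pow_left₀ pi_pos.le h4 4
    _ ≤ 97.42 := by norm_num

/-- **The cut lower bound.** -/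
theorem cut (w : V → ℝ) (hw : ∀ g, 0 ≤ w g) (d : ℕ) (e A : ℝ) (he : 0 < e) (hA : 1 ≤ A)
    (hd : 1000 * A ^ 2 ≤ d + 1) (hX : 10 ^ 8 * 9 ^ d * A ^ 5 ≤ (Fintype.card X : ℝ))
    (hT9 : ∀ B : X → ZMod 2, lam V w B < e * (d + 1) →
      ∃ U : Finset X, U.card ≤ d ∧ ∀ v ∈ V, ∑ x, B x * v x = ∑ x ∈ U, v x)
    (hEN : ∀ U : Finset X, U.card ≤ d → e * U.card ≤ lam V w (fun x => if x ∈ U then 1 else 0))
    (hKW : ∀ U : Finset X, U.Nonempty → U.card ≤ 2 * d → ∃ v ∈ V, ∑ x ∈ U, v x ≠ 0)
    (htr : ∀ v ∈ V, ∀ x : X, (fun y => v (y + x)) ∈ V)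
    (hPRG : ∀ c : Finset X → ℝ, (∀ S, d < S.card → c S = 0) → ∑ S, c S ^ 2 ≤ 1 → tinf c ≤ A →
      ∀ β ξ : ℝ, 0 ≤ ξ → ξ ≤ π →
        |Ex (fun v : V => cos (β + ξ * ev c (fun x => zs (v.1 x)))) -
          Ex (fun z : X → Bool => cos (β + ξ * ev c (fun x => sg (z x))))| ≤ 1 / (200 * A))
    (f : V → ℝ) (hf : ∀ v, f v ^ 2 = 1)
    (hinv : ∀ u v : V, ∀ x : X, (∀ y, v.1 y = u.1 (y + x)) → f v = f u)
    (hbal : |Ex f| ≤ 1 / 2) :
    e * A < cost V w f := by
  classical
  by_contra hcost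
  push Not at hcost
  have hN := card_pos_V (V := V)
  have : Nonempty V := ⟨0⟩
  set c := co V d f with hc
  have hA0 : 0 < A := by linarith
  have hF := fourier V w hw d e he.le hT9 hEN hKW f hf
  rw [← hc] at hF
  have hR0 : 0 ≤ Ex (fun v : V => (f v - PV V c v) ^ 2) := Ex_nonneg fun v => sq_nonneg _
  set R := Ex (fun v : V => (f v - PV V c v) ^ 2) with hR
  have hT0 : 0 ≤ tinf c := tinf_nonneg c
  set T := tinf c with hT
  have hFR : T + (d + 1) * R ≤ A := by
    have h1 : e * (T + (d + 1) * R) ≤ e * A := by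
      refine le_trans (le_of_eq ?_) (hF.trans hcost)
      rfl
    exact le_of_mul_le_mul_left h1 he
  have hd1 : (0 : ℝ) < d + 1 := by positivity
  have hTA : T ≤ A := by nlinarith [mul_nonneg hd1.le hR0]
  have hRA : R ≤ 1 / (1000 * A) := by
    rw [le_div_iff₀ (by positivity)]
    have h1 : (d + 1) * R ≤ A := by linarith
    have h2 : 1000 * A ^ 2 * R ≤ A := le_trans (mul_le_mul_of_nonneg_right hd hR0) h1
    have h3 : A * (R * (1000 * A)) ≤ A * 1 := by nlinarith
    exact le_of_mul_le_mul_left h3 hA0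
  have hcz : ∀ S : Finset X, d < S.card → c S = 0 := fun S h => by
    rw [hc]; unfold co; rw [if_neg (by omega)]
  -- the square sum of the coefficients
  have hc2 : ∑ S : Finset X, c S ^ 2 ≤ 1 := by
    have h := dist_eq V d hKW f hf
    rw [← hc] at h
    have h1 : R = 1 - ∑ S : Finset X, c S ^ 2 := h
    linarith
  -- influences
  have hcard : (0 : ℝ) < Fintype.card X := by
    refine lt_of_lt_of_le ?_ hX
    positivity
  have hinf : ∀ k : X, inf c k ≤ T / Fintype.card X := by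
    intro k
    have h := inf_eq V htr d f hinv k
    rw [le_div_iff₀ hcard, mul_comm]
    exact le_of_eq h
  -- PRG
  have hP := hPRG c hcz hc2 hTA
  -- `η`
  have hη : etaP c ≤ 0.005 / A := by
    have h1 : etaP c = (1 + Ex (fun z : X → Bool => cos (0 + π * ev c (fun x => sg (z x))))) / 2 := by
      unfold etaP
      simp only [one_sub_FF_sq, zero_add]
      rw [Ex_div_const, Ex_add, Ex_const]
    have h2 : Ex (fun v : V => 1 - FF (PV V c v) ^ 2) =
        (1 + Ex (fun v : V => cos (0 + π * ev c (fun x => zs (v.1 x))))) / 2 := by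
      simp only [one_sub_FF_sq, zero_add, PV_eq]
      rw [Ex_div_const, Ex_add, Ex_const]
    have h3 := abs_le.1 (hP 0 π pi_pos.le le_rfl)
    have h4 : Ex (fun v : V => 1 - FF (PV V c v) ^ 2) ≤ π ^ 2 / 4 * R := by
      rw [hR, ← Ex_const_mul]
      exact Ex_mono fun v => one_sub_FF_sq_le (f v) _ (hf v)
    have h5 : π ^ 2 / 4 * R ≤ 9.87 / 4 * (1 / (1000 * A)) := by
      have := pi_sq_le
      gcongr
    have h6 : etaP c ≤ 9.87 / 4 * (1 / (1000 * A)) + 1 / (200 * A) / 2 := by
      rw [h1]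
      linarith [h3.1, h2, h4, h5]
    refine h6.trans ?_
    have : 9.87 / 4 * (1 / (1000 * A)) + 1 / (200 * A) / 2 = (9.87 / 4000 + 1 / 400) / A := by
      field_simp
      ring
    rw [this]
    gcongr
    norm_num
  -- `μ`
  have hμ : |muP c| ≤ 0.56 := by
    have e0 : ∀ t : ℝ, cos (-(π / 2) + π / 2 * t) = FF t := by
      intro t
      unfold FF
      have : -(π / 2) + π / 2 * t = -(π / 2 - π / 2 * t) := by ring
      rw [this, cos_neg, cos_pi_div_two_sub]
    have h1 : muP c = Ex (fun z : X → Bool =>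
        cos (-(π / 2) + π / 2 * ev c (fun x => sg (z x)))) := by
      unfold muP
      simp only [e0]
    have h2 : Ex (fun v : V => FF (PV V c v)) = Ex (fun v : V =>
        cos (-(π / 2) + π / 2 * ev c (fun x => zs (v.1 x)))) := by
      simp only [e0, PV_eq]
    have h3 := hP (-(π / 2)) (π / 2) (by positivity) (by linarith [pi_pos])
    rw [← h1, ← h2] at h3
    have h4 : |Ex f - Ex (fun v : V => FF (PV V c v))| ≤ 0.05 := by
      have h5 : Ex f - Ex (fun v : V => FF (PV V c v)) =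
          Ex (fun v : V => (f v - FF (PV V c v)) * 1) := by
        rw [← Ex_sub]
        exact Ex_congr fun v => by ring
      have h6 : (Ex f - Ex (fun v : V => FF (PV V c v))) ^ 2 ≤ 0.05 ^ 2 := by
        rw [h5]
        refine (Ex_mul_sq_le _ _).trans ?_
        have h7 : Ex (fun v : V => (1 : ℝ) ^ 2) = 1 := by
          rw [Ex_const]; norm_num
        rw [h7, mul_one]
        have h8 : Ex (fun v : V => (f v - FF (PV V c v)) ^ 2) ≤ π ^ 2 / 4 * R := by
          rw [hR, ← Ex_const_mul]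
          refine Ex_mono fun v => ?_
          have := FF_sub_sq (f v) (PV V c v)
          rwa [FF_pm _ (hf v)] at this
        have h9 : π ^ 2 / 4 * R ≤ 9.87 / 4 * (1 / 1000) := by
          have := pi_sq_le
          have h10 : R ≤ 1 / 1000 := by
            refine hRA.trans ?_
            apply one_div_le_one_div_of_le (by norm_num)
            linarith
          gcongr
        refine h8.trans (h9.trans ?_)
        norm_num
      exact abs_le_of_sq_le_sq h6 (by norm_num)
    have h11 : 1 / (200 * A) ≤ 0.005 := by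
      rw [div_le_iff₀ (by positivity)]
      nlinarith
    have := abs_le.1 h3
    have := abs_le.1 h4
    have := abs_le.1 hbal
    rw [abs_le]
    constructor <;> linarith
  -- the chain
  set j : ℕ := ⌈16 * A⌉₊ with hj
  have hj1 : 16 * A ≤ j := Nat.le_ceil _
  have hj2 : (j : ℝ) ≤ 17 * A := by
    have := Nat.ceil_lt_add_one (show 0 ≤ 16 * A by positivity)
    rw [← hj] at this
    linarith
  have hj0 : 0 < j := by
    have : (0 : ℝ) < j := by nlinarith
    exact_mod_cast this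
  have hjr : (0 : ℝ) < j := by exact_mod_cast hj0
  have hch := chain c d hcz (T / Fintype.card X) hinf j hj0
  rw [← hT] at hch
  have hη0 : 0 ≤ etaP c := by
    unfold etaP
    refine Ex_nonneg fun z => ?_
    have := FF_abs (ev c fun i => sg (z i))
    nlinarith [sq_abs (FF (ev c fun i => sg (z i))), abs_nonneg (FF (ev c fun i => sg (z i)))]
  -- left side
  have hleft : 0.68 ≤ 1 - etaP c - muP c ^ 2 := by
    have h1 : muP c ^ 2 ≤ 0.56 ^ 2 := sq_le_sq' (by linarith [(abs_le.1 hμ).1]) (abs_le.1 hμ).2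
    have h2 : etaP c ≤ 0.005 := by
      refine hη.trans ?_
      rw [div_le_iff₀ hA0]
      nlinarith
    norm_num at h1 h2 ⊢
    linarith
  -- first term
  have ht1 : π ^ 4 / (32 * j) * T ≤ 0.2 := by
    have h1 : π ^ 4 / (32 * j) * T ≤ 97.42 / (32 * (16 * A)) * A := by
      have := pi_four_le
      gcongr
    refine h1.trans ?_
    have : 97.42 / (32 * (16 * A)) * A = 97.42 / 512 := by field_simp; norm_num
    rw [this]
    norm_num
  have ht2 : 2 * j * etaP c ≤ 0.17 := by
    have h1 : 2 * j * etaP c ≤ 2 * (17 * A) * (0.005 / A) := by gcongr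
    refine h1.trans ?_
    have : 2 * (17 * A) * (0.005 / A) = 0.17 := by field_simp; norm_num
    rw [this]
  have ht3 : 21 * j * (3 ^ d * √(T / Fintype.card X) * T) ≤ 0.04 := by
    have h1 : √(T / Fintype.card X) ≤ 1 / (10 ^ 4 * 3 ^ d * A ^ 2) := by
      rw [show (1 : ℝ) / (10 ^ 4 * 3 ^ d * A ^ 2) = √((1 / (10 ^ 4 * 3 ^ d * A ^ 2)) ^ 2) by
        rw [Real.sqrt_sq (by positivity)]]
      apply Real.sqrt_le_sqrt
      rw [div_le_iff₀ hcard, div_pow, one_pow, div_mul_eq_mul_div, one_mul,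
        le_div_iff₀ (by positivity)]
      have h2 : (10 ^ 4 * 3 ^ d * A ^ 2) ^ 2 = (10 ^ 8 * 9 ^ d * A ^ 4 : ℝ) := by
        have : (9 : ℝ) ^ d = (3 ^ d) ^ 2 := by
          rw [← pow_mul, mul_comm d 2, pow_mul]; norm_num
        rw [this]; ring
      rw [h2]
      refine le_trans ?_ hX
      calc T * (10 ^ 8 * 9 ^ d * A ^ 4) ≤ A * (10 ^ 8 * 9 ^ d * A ^ 4) := by gcongr
        _ = 10 ^ 8 * 9 ^ d * A ^ 5 := by ring
    have h2 : 21 * j * (3 ^ d * √(T / Fintype.card X) * T) ≤
        21 * (17 * A) * (3 ^ d * (1 / (10 ^ 4 * 3 ^ d * A ^ 2)) * A) := by gcongr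
    refine h2.trans ?_
    have : 21 * (17 * A) * (3 ^ d * (1 / (10 ^ 4 * 3 ^ d * A ^ 2)) * A) = 357 / 10 ^ 4 := by
      field_simp
      norm_num
    rw [this]
    norm_num
  norm_num at hleft ht1 ht2 ht3 hch
  linarith

end

end Vale.Agent.P318.H336
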