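import Vale.Agent.P318.H336.Cut

/-!
P318: the cut lower bound for invariant balanced sets (the form used by the transfer module).
-/

set_option autoImplicit false
set_option linter.unusedSectionVars false
set_option linter.unusedVariables false

namespace Vale.Agent.P318.H336

open Finset Real
open Vale.Agent.P318.H689 (Ex ev tinf inf sg)

noncomputable section

variable {X : Type} [AddCommGroup X] [Fintype X] [DecidableEq X]
  (V : Submodule (ZMod 2) (X → ZMod 2)) [Fintype V] [DecidableEq V]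

/-- the sign function of a set -/
def fS (S : Finset V) (v : V) : ℝ := if v ∈ S then -1 else 1

theorem fS_sq (S : Finset V) (v : V) : fS V S v ^ 2 = 1 := by
  unfold fS; split_ifs <;> norm_num

theorem cost_fS (w : V → ℝ) (S : Finset V) :
    cost V w (fS V S) * Fintype.card V =
      2 * ∑ u ∈ S, ∑ g : V, (if u + g ∈ S then 0 else w g) := by
  have hN := card_pos_V (V := V)
  unfold cost
  rw [div_mul_cancel₀ _ hN.ne']
  have h1 : ∀ v g : V, w g * ((1 - fS V S v * fS V S (v + g)) / 2) =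
      (if v ∈ S then (if v + g ∈ S then 0 else w g) else 0) +
      (if v + g ∈ S then (if v ∈ S then 0 else w g) else 0) := by
    intro v g
    unfold fS
    by_cases h1 : v ∈ S <;> by_cases h2 : v + g ∈ S <;> simp [h1, h2]
  simp_rw [h1, Finset.sum_add_distrib]
  have h2 : ∑ v : V, ∑ g : V, (if v ∈ S then (if v + g ∈ S then 0 else w g) else 0) =
      ∑ u ∈ S, ∑ g : V, (if u + g ∈ S then 0 else w g) := by
    rw [← Finset.sum_filter_add_sum_filter_not univ (fun v : V => v ∈ S)]
    have e1 : ∑ v ∈ univ.filter (fun v : V => v ∈ S),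
        ∑ g : V, (if v ∈ S then (if v + g ∈ S then 0 else w g) else 0) =
        ∑ v ∈ S, ∑ g : V, (if v + g ∈ S then 0 else w g) := by
      rw [Finset.filter_mem_eq_inter, Finset.univ_inter]
      exact Finset.sum_congr rfl fun v hv => by simp [hv]
    have e2 : ∑ v ∈ univ.filter (fun v : V => ¬ v ∈ S),
        ∑ g : V, (if v ∈ S then (if v + g ∈ S then 0 else w g) else 0) = 0 := by
      refine Finset.sum_eq_zero fun v hv => ?_
      simp only [Finset.mem_filter, Finset.mem_univ, true_and] at hv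
      simp [hv]
    rw [e1, e2, add_zero]
  have h3 : ∑ v : V, ∑ g : V, (if v + g ∈ S then (if v ∈ S then 0 else w g) else 0) =
      ∑ v : V, ∑ g : V, (if v ∈ S then (if v + g ∈ S then 0 else w g) else 0) := by
    rw [Finset.sum_comm]
    conv_rhs => rw [Finset.sum_comm]
    refine Finset.sum_congr rfl fun g _ => ?_
    rw [← Equiv.sum_comp (Equiv.addRight g)]
    refine Finset.sum_congr rfl fun v _ => ?_
    have : v + g + g = v := by rw [add_assoc, add_self_V, add_zero]
    simp only [Equiv.coe_addRight, this]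
    by_cases h1 : v ∈ S <;> by_cases h2 : v + g ∈ S <;> simp [h1, h2]
  rw [h3, h2]
  ring

theorem Ex_fS (S : Finset V) :
    Ex (fS V S) = 1 - 2 * (S.card : ℝ) / Fintype.card V := by
  have hN := card_pos_V (V := V)
  have h1 : ∑ v : V, fS V S v = Fintype.card V - 2 * (S.card : ℝ) := by
    have e1 : ∀ v : V, fS V S v = 1 - 2 * (if v ∈ S then (1 : ℝ) else 0) := by
      intro v
      unfold fS
      split_ifs <;> norm_num
    simp_rw [e1]
    rw [Finset.sum_sub_distrib, ← Finset.mul_sum, Finset.sum_ite_mem, Finset.univ_inter]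
    simp
  unfold Ex
  rw [h1]
  field_simp

/-- **The cut lower bound for sets.** -/
theorem cut_set (w : V → ℝ) (hw : ∀ g, 0 ≤ w g) (d : ℕ) (e A : ℝ) (he : 0 < e) (hA : 1 ≤ A)
    (hd : 1000 * A ^ 2 ≤ d + 1) (hX : 10 ^ 8 * 9 ^ d * A ^ 5 ≤ (Fintype.card X : ℝ))
    (hT9 : ∀ B : X → ZMod 2, lam V w B < e * (d + 1) →
      ∃ U : Finset X, U.card ≤ d ∧ ∀ v ∈ V, ∑ x, B x * v x = ∑ x ∈ U, v x)
    (hEN : ∀ U : Finset X, U.card ≤ d → e * U.card ≤ lam V w (fun x => if x ∈ U then 1 else 0))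
    (hKW : ∀ U : Finset X, U.Nonempty → U.card ≤ 2 * d → ∃ v ∈ V, ∑ x ∈ U, v x ≠ 0)
    (htr : ∀ v ∈ V, ∀ x : X, (fun y => v (y + x)) ∈ V)
    (hPRG : ∀ c : Finset X → ℝ, (∀ S, d < S.card → c S = 0) → ∑ S, c S ^ 2 ≤ 1 → tinf c ≤ A →
      ∀ β ξ : ℝ, 0 ≤ ξ → ξ ≤ π →
        |Ex (fun v : V => cos (β + ξ * ev c (fun x => zs (v.1 x)))) -
          Ex (fun z : X → Bool => cos (β + ξ * ev c (fun x => sg (z x))))| ≤ 1 / (200 * A))
    (S : Finset V)
    (hinv : ∀ u v : V, ∀ x : X, (∀ y, v.1 y = u.1 (y + x)) → (u ∈ S ↔ v ∈ S))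
    (h1 : Fintype.card V ≤ 3 * S.card) (h2 : 3 * S.card ≤ 2 * Fintype.card V) :
    e * A / 2 * Fintype.card V ≤ ∑ u ∈ S, ∑ g : V, (if u + g ∈ S then 0 else w g) := by
  have hN := card_pos_V (V := V)
  have h1' : (Fintype.card V : ℝ) ≤ 3 * S.card := by exact_mod_cast h1
  have h2' : 3 * (S.card : ℝ) ≤ 2 * Fintype.card V := by exact_mod_cast h2
  have hbal : |Ex (fS V S)| ≤ 1 / 3 := by
    rw [Ex_fS, abs_le]
    constructor
    · have : 2 * (S.card : ℝ) / Fintype.card V ≤ 4 / 3 := by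
        rw [div_le_iff₀ hN]; linarith
      linarith
    · have : 2 / 3 ≤ 2 * (S.card : ℝ) / Fintype.card V := by
        rw [le_div_iff₀ hN]; linarith
      linarith
  have hc := cut V w hw d e A he hA hd hX hT9 hEN hKW htr hPRG (fS V S) (fS_sq V S)
    (fun u v x h => by unfold fS; simp only [hinv u v x h]) (hbal.trans (by norm_num))
  have hcf := cost_fS V w S
  nlinarith [hc, hcf, hN]

end

end Vale.Agent.P318.H336
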