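import Mathlib

/-!
P318, module FOURIER (section 10): a function `f : V → {±1}` on a code `V ≤ (X → ZMod 2)` of low
cost is close to a polynomial of low degree.
-/

set_option autoImplicit false
set_option linter.unusedSectionVars false
set_option linter.unusedVariables false

namespace Vale.Agent.P318.H336

open Finset

noncomputable section

/-- sign of an element of `ZMod 2` -/
def zs (a : ZMod 2) : ℝ := if a = 0 then 1 else -1

theorem zs_zero : zs 0 = 1 := by simp [zs]

theorem zs_add (a b : ZMod 2) : zs (a + b) = zs a * zs b := by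
  revert a b
  have key : ∀ a b : ZMod 2, (a + b = 0 ↔ (a = 0 ↔ b = 0)) := by decide
  intro a b
  unfold zs
  by_cases ha : a = 0 <;> by_cases hb : b = 0 <;> simp [key, ha, hb]

theorem zs_sq (a : ZMod 2) : zs a * zs a = 1 := by
  unfold zs; split_ifs <;> norm_num

theorem zs_ne (a : ZMod 2) (h : a ≠ 0) : zs a = -1 := by simp [zs, h]

theorem zs_sum {ι : Type*} (s : Finset ι) (v : ι → ZMod 2) :
    zs (∑ i ∈ s, v i) = ∏ i ∈ s, zs (v i) := by
  classical
  induction s using Finset.induction_on with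
  | empty => simp [zs_zero]
  | insert a s ha ih => rw [Finset.sum_insert ha, Finset.prod_insert ha, zs_add, ih]

theorem zs_eq (a : ZMod 2) : (if a = 0 then (0 : ℝ) else 1) = (1 - zs a) / 2 := by
  unfold zs; split_ifs <;> norm_num

section Dual

variable {V : Type*} [AddCommGroup V] [Module (ZMod 2) V] [Fintype V] [DecidableEq V]

theorem add_self_V (v : V) : v + v = 0 := by
  have : (2 : ZMod 2) • v = 0 := by
    have h2 : (2 : ZMod 2) = 0 := by decide
    rw [h2, zero_smul]
  rwa [two_smul] at this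

/-- if a functional is nonzero its sign has mean zero -/
theorem sum_zs_dual (φ : V →ₗ[ZMod 2] ZMod 2) (h : ∃ v, φ v ≠ 0) :
    ∑ v : V, zs (φ v) = 0 := by
  obtain ⟨v0, hv0⟩ := h
  have h1 : ∑ v : V, zs (φ v) = ∑ v : V, zs (φ (v + v0)) :=
    (Equiv.sum_comp (Equiv.addRight v0) (fun v => zs (φ v))).symm
  have h2 : ∑ v : V, zs (φ (v + v0)) = - ∑ v : V, zs (φ v) := by
    rw [← Finset.sum_neg_distrib]
    refine Finset.sum_congr rfl fun v _ => ?_
    rw [map_add, zs_add, zs_ne _ hv0]; ring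
  linarith

variable (V) in
/-- the dual space as a type with a finite structure -/
abbrev D : Type _ := V →ₗ[ZMod 2] ZMod 2

instance : Finite (D V) := by
  have : Function.Injective (fun φ : D V => (φ : V → ZMod 2)) := DFunLike.coe_injective
  exact Finite.of_injective _ this

noncomputable instance : Fintype (D V) := Fintype.ofFinite _

theorem exists_dual (v : V) (hv : v ≠ 0) : ∃ φ : D V, φ v ≠ 0 := by
  by_contra h
  push Not at h
  exact hv ((Module.forall_dual_apply_eq_zero_iff (ZMod 2) v).1 h)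

theorem sum_dual (v : V) (hv : v ≠ 0) : ∑ φ : D V, zs (φ v) = 0 := by
  obtain ⟨φ0, h0⟩ := exists_dual v hv
  have h1 : ∑ φ : D V, zs (φ v) = ∑ φ : D V, zs ((φ + φ0) v) :=
    (Equiv.sum_comp (Equiv.addRight φ0) (fun φ : D V => zs (φ v))).symm
  have h2 : ∑ φ : D V, zs ((φ + φ0) v) = - ∑ φ : D V, zs (φ v) := by
    rw [← Finset.sum_neg_distrib]
    refine Finset.sum_congr rfl fun φ _ => ?_
    rw [LinearMap.add_apply, zs_add, zs_ne _ h0]; ring
  linarith

theorem card_dual : (Fintype.card (D V) : ℝ) = Fintype.card V := by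
  have h1 : ∑ v : V, ∑ φ : D V, zs (φ v) = Fintype.card (D V) := by
    rw [Finset.sum_eq_single (0 : V)]
    · simp [zs_zero]
    · intro v _ hv; exact sum_dual v hv
    · simp
  have h2 : ∑ φ : D V, ∑ v : V, zs (φ v) = Fintype.card V := by
    rw [Finset.sum_eq_single (0 : D V)]
    · simp [zs_zero]
    · intro φ _ hφ
      apply sum_zs_dual
      by_contra hc
      push Not at hc
      exact hφ (LinearMap.ext fun v => by simpa using hc v)
    · simp
  rw [← h1, Finset.sum_comm, h2]

/-- Fourier coefficient at a functional -/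
def fh (f : V → ℝ) (φ : D V) : ℝ := (∑ v : V, f v * zs (φ v)) / Fintype.card V

theorem card_pos_V : (0 : ℝ) < Fintype.card V := by
  have : 0 < Fintype.card V := Fintype.card_pos_iff.2 ⟨0⟩
  exact_mod_cast this

theorem sum_fh_sq_zs (f : V → ℝ) (g : V) :
    ∑ φ : D V, fh f φ ^ 2 * zs (φ g) = (∑ v : V, f v * f (v + g)) / Fintype.card V := by
  have hN := card_pos_V (V := V)
  have e1 : ∀ φ : D V, fh f φ ^ 2 * zs (φ g) =
      (∑ v : V, ∑ u : V, f v * f u * zs (φ (v + u + g))) / (Fintype.card V : ℝ) ^ 2 := by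
    intro φ
    unfold fh
    rw [div_pow, div_mul_eq_mul_div]
    congr 1
    rw [sq, Finset.sum_mul_sum, Finset.sum_mul]
    refine Finset.sum_congr rfl fun v _ => ?_
    rw [Finset.sum_mul]
    refine Finset.sum_congr rfl fun u _ => ?_
    rw [map_add, map_add, zs_add, zs_add]; ring
  simp_rw [e1]
  rw [← Finset.sum_div, Finset.sum_comm]
  have e2 : ∀ v : V, ∑ φ : D V, ∑ u : V, f v * f u * zs (φ (v + u + g)) =
      f v * f (v + g) * Fintype.card V := by
    intro v
    rw [Finset.sum_comm]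
    have : ∀ u : V, ∑ φ : D V, f v * f u * zs (φ (v + u + g)) =
        if u = v + g then f v * f (v + g) * Fintype.card V else 0 := by
      intro u
      rw [← Finset.mul_sum]
      split_ifs with hu
      · subst hu
        have hz : v + (v + g) + g = 0 := by
          have := add_self_V (v + g)
          calc v + (v + g) + g = (v + g) + (v + g) := by abel
            _ = 0 := this
        rw [hz]
        simp [zs_zero, ← card_dual (V := V)]
      · rw [sum_dual]
        · ring
        · intro hc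
          apply hu
          have h3 : u + (v + g) = 0 := by rw [← hc]; abel
          calc u = u + ((v + g) + (v + g)) := by rw [add_self_V]; simp
            _ = (u + (v + g)) + (v + g) := by abel
            _ = v + g := by rw [h3]; simp
    simp_rw [this]
    simp
  simp_rw [e2]
  rw [← Finset.sum_mul]
  field_simp

theorem parseval (f : V → ℝ) : ∑ φ : D V, fh f φ ^ 2 = (∑ v : V, f v ^ 2) / Fintype.card V := by
  have := sum_fh_sq_zs f 0
  simp only [map_zero, zs_zero, mul_one, add_zero] at this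
  rw [this]
  congr 1
  exact Finset.sum_congr rfl fun v _ => by ring

end Dual

section Code

variable {X : Type} [Fintype X] [DecidableEq X] (V : Submodule (ZMod 2) (X → ZMod 2)) [Fintype V]

/-- energy of a mod-2 measure for the weighted test -/
def lam (w : V → ℝ) (B : X → ZMod 2) : ℝ := ∑ g : V, if ∑ x, B x * g.1 x = 0 then 0 else w g

/-- cost of a function for the weighted test -/
def cost (w : V → ℝ) (f : V → ℝ) : ℝ :=
  (∑ v : V, ∑ g : V, w g * ((1 - f v * f (v + g)) / 2)) / Fintype.card V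

/-- value of a polynomial at a code word -/
def PV (c : Finset X → ℝ) (v : V) : ℝ := ∑ S : Finset X, c S * ∏ x ∈ S, zs (v.1 x)

/-- low degree coefficients of `f` -/
def co (d : ℕ) (f : V → ℝ) (S : Finset X) : ℝ :=
  if S.card ≤ d then (∑ v : V, f v * ∏ x ∈ S, zs (v.1 x)) / Fintype.card V else 0

/-- evaluation functional of a set -/
def ph (U : Finset X) : D V :=
  { toFun := fun v => ∑ x ∈ U, v.1 x
    map_add' := fun u v => by simp [Finset.sum_add_distrib]
    map_smul' := fun a v => by simp [Finset.mul_sum] }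

theorem ph_apply (U : Finset X) (v : V) : ph V U v = ∑ x ∈ U, v.1 x := rfl

theorem co_eq (d : ℕ) (f : V → ℝ) (S : Finset X) (h : S.card ≤ d) :
    co V d f S = fh f (ph V S) := by
  unfold co fh
  rw [if_pos h]
  simp_rw [ph_apply, zs_sum]

theorem dual_rep (φ : D V) : ∃ B : X → ZMod 2, ∀ v : V, φ v = ∑ x, B x * v.1 x := by
  obtain ⟨ψ, hψ⟩ := LinearMap.exists_extend (p := V) φ
  refine ⟨fun x => ψ (Pi.single x 1), fun v => ?_⟩
  have h1 : φ v = ψ v.1 := by rw [← hψ]; rfl
  rw [h1]
  have h2 : v.1 = ∑ x, v.1 x • (Pi.single x (1 : ZMod 2) : X → ZMod 2) := by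
    funext y
    simp [Finset.sum_apply, Pi.single_apply]
  conv_lhs => rw [h2]
  rw [map_sum]
  refine Finset.sum_congr rfl fun x _ => ?_
  rw [map_smul, smul_eq_mul, mul_comm]

/-- energy of a functional -/
def lamD (w : V → ℝ) (φ : D V) : ℝ := ∑ g : V, w g * ((1 - zs (φ g)) / 2)

theorem lamD_nonneg (w : V → ℝ) (hw : ∀ g, 0 ≤ w g) (φ : D V) : 0 ≤ lamD V w φ := by
  refine Finset.sum_nonneg fun g _ => mul_nonneg (hw g) ?_
  unfold zs; split_ifs <;> norm_num

theorem lam_eq (w : V → ℝ) (B : X → ZMod 2) (φ : D V) (h : ∀ v : V, φ v = ∑ x, B x * v.1 x) :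
    lam V w B = lamD V w φ := by
  unfold lam lamD
  refine Finset.sum_congr rfl fun g _ => ?_
  rw [← zs_eq, ← h]
  split_ifs <;> simp

theorem cost_eq (w : V → ℝ) (f : V → ℝ) (hf : ∀ v, f v ^ 2 = 1) :
    cost V w f = ∑ φ : D V, fh f φ ^ 2 * lamD V w φ := by
  classical
  have hN := card_pos_V (V := V)
  have hp : ∑ φ : D V, fh f φ ^ 2 = 1 := by
    rw [parseval]
    simp_rw [hf]
    simp only [Finset.sum_const, Finset.card_univ, nsmul_eq_mul, mul_one]
    exact div_self hN.ne'
  have e1 : ∑ φ : D V, fh f φ ^ 2 * lamD V w φ =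
      ∑ g : V, w g * ((∑ φ : D V, fh f φ ^ 2 - ∑ φ : D V, fh f φ ^ 2 * zs (φ g)) / 2) := by
    unfold lamD
    simp_rw [Finset.mul_sum]
    rw [Finset.sum_comm]
    refine Finset.sum_congr rfl fun g _ => ?_
    rw [← Finset.sum_sub_distrib, Finset.sum_div, Finset.mul_sum]
    exact Finset.sum_congr rfl fun φ _ => by ring
  rw [e1]
  unfold cost
  rw [Finset.sum_comm, Finset.sum_div]
  refine Finset.sum_congr rfl fun g _ => ?_
  rw [hp, sum_fh_sq_zs, ← Finset.mul_sum, mul_div_assoc]
  congr 1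
  rw [← Finset.sum_div, Finset.sum_sub_distrib]
  simp only [Finset.sum_const, Finset.card_univ, nsmul_eq_mul, mul_one]
  field_simp

/-- orthonormality of the small characters -/
theorem ph_inj (d : ℕ)
    (hKW : ∀ U : Finset X, U.Nonempty → U.card ≤ 2 * d → ∃ v ∈ V, ∑ x ∈ U, v x ≠ 0)
    (S T : Finset X) (hS : S.card ≤ d) (hT : T.card ≤ d) (hne : S ≠ T) :
    ∃ v : V, (ph V S + ph V T) v ≠ 0 := by
  have hsym : (symmDiff S T).Nonempty := by
    rw [Finset.nonempty_iff_ne_empty]
    intro h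
    exact hne (symmDiff_eq_bot.1 h)
  have hcard : (symmDiff S T).card ≤ 2 * d := by
    calc (symmDiff S T).card ≤ (S ∪ T).card := by
          apply Finset.card_le_card
          intro x hx
          simp only [Finset.mem_symmDiff] at hx
          simp only [Finset.mem_union]
          tauto
      _ ≤ S.card + T.card := Finset.card_union_le _ _
      _ ≤ 2 * d := by omega
  obtain ⟨v, hv, hne0⟩ := hKW _ hsym hcard
  refine ⟨⟨v, hv⟩, ?_⟩
  intro h0
  apply hne0
  rw [LinearMap.add_apply, ph_apply, ph_apply] at h0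
  simp only at h0
  have hz : ∀ a : ZMod 2, a + a = 0 := by decide
  have hs : ∑ x ∈ symmDiff S T, v x = ∑ x ∈ S \ T, v x + ∑ x ∈ T \ S, v x := by
    have : symmDiff S T = (S \ T) ∪ (T \ S) := rfl
    rw [this, Finset.sum_union]
    exact disjoint_sdiff_sdiff
  have h1 : ∑ x ∈ S, v x = ∑ x ∈ S \ T, v x + ∑ x ∈ S ∩ T, v x := by
    rw [← Finset.sum_union]
    · congr 1
      ext x; simp only [Finset.mem_union, Finset.mem_sdiff, Finset.mem_inter]; tauto
    · rw [Finset.disjoint_left]; intro x; simp only [Finset.mem_sdiff, Finset.mem_inter]; tauto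
  have h2 : ∑ x ∈ T, v x = ∑ x ∈ T \ S, v x + ∑ x ∈ S ∩ T, v x := by
    rw [← Finset.sum_union]
    · congr 1
      ext x; simp only [Finset.mem_union, Finset.mem_sdiff, Finset.mem_inter]; tauto
    · rw [Finset.disjoint_left]; intro x; simp only [Finset.mem_sdiff, Finset.mem_inter]; tauto
  rw [hs]
  rw [h1, h2] at h0
  calc ∑ x ∈ S \ T, v x + ∑ x ∈ T \ S, v x
      = (∑ x ∈ S \ T, v x + ∑ x ∈ T \ S, v x) + (∑ x ∈ S ∩ T, v x + ∑ x ∈ S ∩ T, v x) := by
        rw [hz]; simp
    _ = ∑ x ∈ S \ T, v x + ∑ x ∈ S ∩ T, v x + (∑ x ∈ T \ S, v x + ∑ x ∈ S ∩ T, v x) := by abel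
    _ = 0 := h0

theorem sum_char_mul (d : ℕ)
    (hKW : ∀ U : Finset X, U.Nonempty → U.card ≤ 2 * d → ∃ v ∈ V, ∑ x ∈ U, v x ≠ 0)
    (S T : Finset X) (hS : S.card ≤ d) (hT : T.card ≤ d) :
    ∑ v : V, (∏ x ∈ S, zs (v.1 x)) * (∏ x ∈ T, zs (v.1 x)) =
      if S = T then (Fintype.card V : ℝ) else 0 := by
  classical
  split_ifs with h
  · subst h
    have : ∀ v : V, (∏ x ∈ S, zs (v.1 x)) * (∏ x ∈ S, zs (v.1 x)) = 1 := by
      intro v
      rw [← Finset.prod_mul_distrib]
      exact Finset.prod_eq_one fun x _ => zs_sq _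
    simp_rw [this]
    simp
  · have := sum_zs_dual (ph V S + ph V T) (ph_inj V d hKW S T hS hT h)
    rw [← this]
    refine Finset.sum_congr rfl fun v _ => ?_
    rw [LinearMap.add_apply, zs_add, ph_apply, ph_apply, zs_sum, zs_sum]

/-- distance between `f` and its low degree part -/
theorem dist_eq (d : ℕ)
    (hKW : ∀ U : Finset X, U.Nonempty → U.card ≤ 2 * d → ∃ v ∈ V, ∑ x ∈ U, v x ≠ 0)
    (f : V → ℝ) (hf : ∀ v, f v ^ 2 = 1) :
    (∑ v : V, (f v - PV V (co V d f) v) ^ 2) / Fintype.card V =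
      1 - ∑ S : Finset X, co V d f S ^ 2 := by
  classical
  have hN := card_pos_V (V := V)
  set c := co V d f with hc
  have hcz : ∀ S : Finset X, ¬ S.card ≤ d → c S = 0 := fun S h => by
    rw [hc]; unfold co; rw [if_neg h]
  have e1 : ∑ v : V, f v * PV V c v = (∑ S : Finset X, c S ^ 2) * Fintype.card V := by
    unfold PV
    simp_rw [Finset.mul_sum]
    rw [Finset.sum_comm, Finset.sum_mul]
    refine Finset.sum_congr rfl fun S _ => ?_
    by_cases hS : S.card ≤ d
    · have : ∑ v : V, f v * (c S * ∏ x ∈ S, zs (v.1 x)) =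
          c S * ∑ v : V, f v * ∏ x ∈ S, zs (v.1 x) := by
        rw [Finset.mul_sum]; exact Finset.sum_congr rfl fun v _ => by ring
      rw [this]
      have h2 : ∑ v : V, f v * ∏ x ∈ S, zs (v.1 x) = c S * Fintype.card V := by
        rw [hc]; unfold co; rw [if_pos hS]; field_simp
      rw [h2]; ring
    · rw [hcz S hS]; simp
  have e2 : ∑ v : V, PV V c v ^ 2 = (∑ S : Finset X, c S ^ 2) * Fintype.card V := by
    have : ∀ v : V, PV V c v ^ 2 = ∑ S : Finset X, ∑ T : Finset X,
        c S * c T * ((∏ x ∈ S, zs (v.1 x)) * (∏ x ∈ T, zs (v.1 x))) := by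
      intro v
      unfold PV
      rw [sq, Finset.sum_mul_sum]
      refine Finset.sum_congr rfl fun S _ => Finset.sum_congr rfl fun T _ => by ring
    simp_rw [this]
    rw [Finset.sum_comm, Finset.sum_mul]
    refine Finset.sum_congr rfl fun S _ => ?_
    rw [Finset.sum_comm]
    by_cases hS : S.card ≤ d
    · have : ∀ T : Finset X, ∑ v : V, c S * c T *
          ((∏ x ∈ S, zs (v.1 x)) * (∏ x ∈ T, zs (v.1 x))) =
          if S = T then c S * c S * Fintype.card V else 0 := by
        intro T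
        rw [← Finset.mul_sum]
        by_cases hT : T.card ≤ d
        · rw [sum_char_mul V d hKW S T hS hT]
          split_ifs with h
          · subst h; rfl
          · ring
        · rw [hcz T hT]
          split_ifs with h
          · subst h; exact absurd hS hT
          · ring
      simp_rw [this]
      simp [sq]
    · rw [hcz S hS]; simp
  have e3 : ∑ v : V, (f v - PV V c v) ^ 2 =
      ∑ v : V, f v ^ 2 - 2 * ∑ v : V, f v * PV V c v + ∑ v : V, PV V c v ^ 2 := by
    rw [Finset.mul_sum, ← Finset.sum_sub_distrib, ← Finset.sum_add_distrib]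
    exact Finset.sum_congr rfl fun v _ => by ring
  rw [e3, e1, e2]
  simp_rw [hf]
  simp only [Finset.sum_const, Finset.card_univ, nsmul_eq_mul, mul_one]
  field_simp
  ring

/-- **Section 10.** -/
theorem fourier (w : V → ℝ) (hw : ∀ g, 0 ≤ w g) (d : ℕ) (e : ℝ) (he : 0 ≤ e)
    (hT9 : ∀ B : X → ZMod 2, lam V w B < e * (d + 1) →
      ∃ U : Finset X, U.card ≤ d ∧ ∀ v ∈ V, ∑ x, B x * v x = ∑ x ∈ U, v x)
    (hEN : ∀ U : Finset X, U.card ≤ d → e * U.card ≤ lam V w (fun x => if x ∈ U then 1 else 0))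
    (hKW : ∀ U : Finset X, U.Nonempty → U.card ≤ 2 * d → ∃ v ∈ V, ∑ x ∈ U, v x ≠ 0)
    (f : V → ℝ) (hf : ∀ v, f v ^ 2 = 1) :
    e * (∑ S : Finset X, (S.card : ℝ) * co V d f S ^ 2 +
      (d + 1) * ((∑ v : V, (f v - PV V (co V d f) v) ^ 2) / Fintype.card V)) ≤ cost V w f := by
  classical
  have hN := card_pos_V (V := V)
  rw [dist_eq V d hKW f hf, cost_eq V w f hf]
  have hp : ∑ φ : D V, fh f φ ^ 2 = 1 := by
    rw [parseval]
    simp_rw [hf]
    simp only [Finset.sum_const, Finset.card_univ, nsmul_eq_mul, mul_one]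
    exact div_self hN.ne'
  set small : Finset (Finset X) := univ.filter fun S : Finset X => S.card ≤ d with hsm
  have hinj : Set.InjOn (ph V) (small : Set (Finset X)) := by
    intro S hS T hT hST
    by_contra hne
    simp only [hsm, coe_filter, mem_univ, true_and, Set.mem_ofPred_eq] at hS hT
    obtain ⟨v, hv⟩ := ph_inj V d hKW S T hS hT hne
    apply hv
    rw [hST, LinearMap.add_apply]
    have hz : ∀ a : ZMod 2, a + a = 0 := by decide
    exact hz _
  set Im : Finset (D V) := small.image (ph V) with hIm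
  have hsum1 : ∑ S : Finset X, co V d f S ^ 2 = ∑ φ ∈ Im, fh f φ ^ 2 := by
    rw [hIm, Finset.sum_image hinj, hsm, Finset.sum_filter]
    refine Finset.sum_congr rfl fun S _ => ?_
    split_ifs with h
    · rw [co_eq V d f S h]
    · unfold co; rw [if_neg h]; simp
  have hsum2 : e * ∑ S : Finset X, (S.card : ℝ) * co V d f S ^ 2 ≤
      ∑ φ ∈ Im, fh f φ ^ 2 * lamD V w φ := by
    rw [hIm, Finset.sum_image hinj, hsm, Finset.sum_filter, Finset.mul_sum]
    refine Finset.sum_le_sum fun S _ => ?_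
    split_ifs with h
    · rw [co_eq V d f S h]
      have h1 : lam V w (fun x => if x ∈ S then 1 else 0) = lamD V w (ph V S) := by
        apply lam_eq
        intro v
        rw [ph_apply]
        simp
      have h2 := hEN S h
      rw [h1] at h2
      nlinarith [sq_nonneg (fh f (ph V S))]
    · unfold co; rw [if_neg h]; simp
  have hbig : ∀ φ ∉ Im, e * (d + 1) ≤ lamD V w φ := by
    intro φ hφ
    by_contra hlt
    push Not at hlt
    obtain ⟨B, hB⟩ := dual_rep V φ
    rw [← lam_eq V w B φ hB] at hlt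
    obtain ⟨U, hU, hUv⟩ := hT9 B hlt
    apply hφ
    rw [hIm, Finset.mem_image]
    refine ⟨U, by simp [hsm, hU], ?_⟩
    apply LinearMap.ext
    intro v
    rw [ph_apply, hB, hUv v.1 v.2]
  have hsum3 : e * (d + 1) * ∑ φ ∈ Imᶜ, fh f φ ^ 2 ≤ ∑ φ ∈ Imᶜ, fh f φ ^ 2 * lamD V w φ := by
    rw [Finset.mul_sum]
    refine Finset.sum_le_sum fun φ hφ => ?_
    have := hbig φ (by simpa using hφ)
    nlinarith [sq_nonneg (fh f φ)]
  have hsplit1 : ∑ φ ∈ Im, fh f φ ^ 2 + ∑ φ ∈ Imᶜ, fh f φ ^ 2 = 1 := by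
    rw [Finset.sum_add_sum_compl, hp]
  have hsplit2 : ∑ φ : D V, fh f φ ^ 2 * lamD V w φ =
      ∑ φ ∈ Im, fh f φ ^ 2 * lamD V w φ + ∑ φ ∈ Imᶜ, fh f φ ^ 2 * lamD V w φ :=
    (Finset.sum_add_sum_compl Im _).symm
  rw [hsplit2, hsum1]
  have h5 : 1 - ∑ φ ∈ Im, fh f φ ^ 2 = ∑ φ ∈ Imᶜ, fh f φ ^ 2 := by linarith
  rw [h5]
  nlinarith [hsum2, hsum3]

end Code

section Inv

variable {X : Type} [AddCommGroup X] [Fintype X] [DecidableEq X]
  (V : Submodule (ZMod 2) (X → ZMod 2)) [Fintype V]

/-- translation of a finite set -/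
def tr (t : X) (S : Finset X) : Finset X := S.map (Equiv.addRight t).toEmbedding

theorem card_tr (t : X) (S : Finset X) : (tr t S).card = S.card := Finset.card_map _

theorem mem_tr (t : X) (S : Finset X) (x : X) : x + t ∈ tr t S ↔ x ∈ S := by
  unfold tr
  rw [Finset.mem_map]
  constructor
  · rintro ⟨y, hy, hyx⟩
    have : y = x := by simpa using hyx
    rwa [← this]
  · intro h; exact ⟨x, h, rfl⟩

/-- translation as a permutation of the code -/
def trV (htr : ∀ v ∈ V, ∀ x : X, (fun y => v (y + x)) ∈ V) (t : X) : V ≃ V :=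
  { toFun := fun v => ⟨fun y => v.1 (y + t), htr v.1 v.2 t⟩
    invFun := fun v => ⟨fun y => v.1 (y + (-t)), htr v.1 v.2 (-t)⟩
    left_inv := fun v => by
      apply Subtype.ext; funext y; simp [add_assoc]
    right_inv := fun v => by
      apply Subtype.ext; funext y; simp [add_assoc] }

theorem co_tr (htr : ∀ v ∈ V, ∀ x : X, (fun y => v (y + x)) ∈ V) (d : ℕ) (f : V → ℝ)
    (hinv : ∀ u v : V, ∀ x : X, (∀ y, v.1 y = u.1 (y + x)) → f v = f u)
    (t : X) (S : Finset X) : co V d f (tr t S) = co V d f S := by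
  unfold co
  rw [card_tr]
  split_ifs with h
  · congr 1
    symm
    rw [← Equiv.sum_comp (trV V htr t)]
    refine Finset.sum_congr rfl fun v _ => ?_
    have h1 : f (trV V htr t v) = f v := hinv v (trV V htr t v) t (fun y => rfl)
    rw [h1]
    congr 1
    unfold tr
    rw [Finset.prod_map]
    rfl
  · rfl

/-- the influences of an invariant function are all equal -/
theorem inf_eq (htr : ∀ v ∈ V, ∀ x : X, (fun y => v (y + x)) ∈ V) (d : ℕ) (f : V → ℝ)
    (hinv : ∀ u v : V, ∀ x : X, (∀ y, v.1 y = u.1 (y + x)) → f v = f u) (x : X) :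
    (Fintype.card X : ℝ) * ∑ S : Finset X, (if x ∈ S then co V d f S ^ 2 else 0) =
      ∑ S : Finset X, (S.card : ℝ) * co V d f S ^ 2 := by
  have h1 : ∀ t : X, ∑ S : Finset X, (if x + t ∈ S then co V d f S ^ 2 else 0) =
      ∑ S : Finset X, (if x ∈ S then co V d f S ^ 2 else 0) := by
    intro t
    let E : Finset X ≃ Finset X := (Equiv.addRight t).finsetCongr
    rw [← Equiv.sum_comp E]
    refine Finset.sum_congr rfl fun S _ => ?_
    have hE : E S = tr t S := rfl
    rw [hE, co_tr V htr d f hinv]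
    simp only [mem_tr]
  have h2 : ∑ t : X, ∑ S : Finset X, (if x + t ∈ S then co V d f S ^ 2 else 0) =
      ∑ S : Finset X, (S.card : ℝ) * co V d f S ^ 2 := by
    have h3 : ∑ t : X, ∑ S : Finset X, (if x + t ∈ S then co V d f S ^ 2 else 0) =
        ∑ y : X, ∑ S : Finset X, (if y ∈ S then co V d f S ^ 2 else 0) :=
      Equiv.sum_comp (Equiv.addLeft x)
        (fun y : X => ∑ S : Finset X, (if y ∈ S then co V d f S ^ 2 else 0))
    rw [h3, Finset.sum_comm]
    refine Finset.sum_congr rfl fun S _ => ?_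
    rw [← Finset.sum_filter]
    simp
  rw [← h2]
  simp_rw [h1]
  simp

end Inv

end

end Vale.Agent.P318.H336
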